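import Crest.Agent.X212.End23.Sid
import Crest.Agent.X212.Fht9.Main

/-!
# Row 212, EC-TOP (helper9): the sides of necks
-/

set_option autoImplicit false
set_option linter.unusedSectionVars false
noncomputable section
open scoped Manifold ContDiff Topology InnerProductSpace
open Set Function Filter

namespace Crest.Agent.X212.Ect9
open An Cyf70 Sw End23
open Nd18 (Jv)
open M (Mf pm)
open Cut71 (mem_img tm_tgt)
open Fht9 (Sd op oq)

theorem con_aux {Z : Type} [TopologicalSpace Z] {U W G : Set Z} (hU : IsPreconnected U)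
    (hW : IsOpen W) (hG : IsOpen G) (sub : W ⊆ U) (cov : U ⊆ W ∪ G) (h : IsPreconnected (W ∩ G)) :
    IsPreconnected W := by
  have key : ∀ u v, IsOpen u → IsOpen v → W ⊆ u ∪ v → (W ∩ u).Nonempty → (W ∩ v).Nonempty →
      W ∩ G ⊆ W ∩ u → (W ∩ (u ∩ v)).Nonempty := fun u v hu hv c ⟨x, k⟩ ⟨y, k'⟩ s => by
    obtain ⟨z, -, h1, h2⟩ := hU (W ∩ u ∪ G) (W ∩ v) ((hW.inter hu).union hG) (hW.inter hv)
      (fun z m => (cov m).elim (fun j => (c j).elim (fun i => .inl (.inl ⟨j, i⟩)) fun i => .inr ⟨j, i⟩)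
        fun j => .inl (.inr j)) ⟨x, sub k.1, .inl k⟩ ⟨y, sub k'.1, k'⟩
    exact ⟨z, h2.1, (h1.elim id fun j => s ⟨h2.1, j⟩).2, h2.2⟩
  intro u v hu hv c n n'
  by_contra k
  rcases h.subset_or_subset (hW.inter hu) (hW.inter hv)
    (disjoint_left.2 fun z a b => k ⟨z, a.1, a.2, b.2⟩)
    (fun z m => (c m.1).imp (⟨m.1, ·⟩) (⟨m.1, ·⟩)) with s | s
  exacts [k (key u v hu hv c n n' s),
    k (inter_comm u v ▸ key v u hv hu (union_comm u v ▸ c) n' n s)]

variable {κ lam ν : Type} [Fintype κ] [Fintype lam] [Fintype ν] [DecidableEq ν]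
  {X X₁ : Mf 4} {nc nc₁ : ℕ}

section nk
variable {e : En3 κ lam ν} {b : Bg X.I X.M κ lam ν nc} (K : Nk e b) {s : Bool} {d d' : ℝ}

theorem img_con {S : Set ℝ} (hS : S ⊆ K.J) (h : S.OrdConnected) :
    IsPreconnected {x | K.tm x ∈ S} := by
  rw [show {x | K.tm x ∈ S} = _ from Set.ext fun x => (mem_img K hS).symm]
  exact (isPreconnected_univ.prod h.isPreconnected).image _
    (K.ψ.continuousOn.mono fun z m => K.mem_src.2 (hS m.2))

theorem oc_Jv {p q : Option ℝ} : (Jv p q).OrdConnected :=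
  ⟨fun _ h _ h' _ k => ⟨fun a m => (h.1 a m).trans_le k.1, fun a m => k.2.trans_lt (h'.2 a m)⟩⟩

theorem con {U : Set X.M} (hU : IsOpen U) (hc : IsPreconnected U) (h : K.ψ.target ⊆ U) {a : ℝ}
    (ha : a ∈ K.J) :
    IsPreconnected (U ∩ {x | K.tm x < a}) ∧ IsPreconnected (U ∩ {x | a < K.tm x}) := by
  constructor
  · refine con_aux (G := K.tm ⁻¹' Jv K.p none) hc (hU.inter (isOpen_lt K.cont continuous_const))
      (Nd18.isOpen_Jv.preimage K.cont) inter_subset_left (fun x m => (lt_or_ge (K.tm x) a).imp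
        (⟨m, ·⟩) fun k => ⟨fun r j => (ha.1 r j).trans_le k, by simp⟩) ?_
    convert img_con K (S := K.J ∩ Iio a) inter_subset_left (oc_Jv.inter ordConnected_Iio) using 1
    exact Set.ext fun x => ⟨fun k => ⟨⟨k.2.1, fun r j => k.1.2.trans (ha.2 r j)⟩, k.1.2⟩,
      fun k => ⟨⟨h ((tm_tgt K).2 k.1), k.2⟩, k.1.1, by simp⟩⟩
  · refine con_aux (G := K.tm ⁻¹' Jv none K.q) hc (hU.inter (isOpen_lt continuous_const K.cont))
      (Nd18.isOpen_Jv.preimage K.cont) inter_subset_left (fun x m => (lt_or_ge a (K.tm x)).imp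
        (⟨m, ·⟩) fun k => ⟨by simp, fun r j => k.trans_lt (ha.2 r j)⟩) ?_
    convert img_con K (S := K.J ∩ Ioi a) inter_subset_left (oc_Jv.inter ordConnected_Ioi) using 1
    exact Set.ext fun x => ⟨fun k => ⟨⟨fun r j => (ha.1 r j).trans k.1.2, k.2.2⟩, k.1.2⟩,
      fun k => ⟨⟨h ((tm_tgt K).2 k.1), k.2⟩, by simp, k.1.2⟩⟩

theorem sd_cases (s : Bool) (d : ℝ) : sd K s d = ∅ ∧ K.Inf s ∨
    (∃ a, s = false ∧ K.p = some a ∧ sd K s d = {x | K.tm x < a + d}) ∨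
      ∃ a, s = true ∧ K.q = some a ∧ sd K s d = {x | a - d < K.tm x} := by
  by_cases h : K.Inf s
  · exact .inl ⟨eq_empty_of_forall_notMem fun _ k => sd_fin k h, h⟩
  cases s
  · exact let ⟨a, k⟩ := fin_f h; .inr (.inl ⟨a, rfl, k, by simp [sd, k]⟩)
  · exact let ⟨a, k⟩ := fin_t h; .inr (.inr ⟨a, rfl, k, by simp [sd, k]⟩)

theorem open_sd : IsOpen (sd K s d) := by
  rcases sd_cases K s d with ⟨h, -⟩ | ⟨a, -, -, h⟩ | ⟨a, -, -, h⟩ <;> rw [h]
  exacts [isOpen_empty, isOpen_lt K.cont continuous_const, isOpen_lt continuous_const K.cont]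

theorem cl_sd (h : d' < d) : closure (sd K s d') ⊆ sd K s d := by
  rcases sd_cases K s d' with ⟨k, -⟩ | ⟨a, rfl, j, k⟩ | ⟨a, rfl, j, k⟩ <;> rw [k]
  · simp
  · exact (closure_lt_subset_le K.cont continuous_const).trans fun x m =>
      sd_f.2 ⟨a, j, by linarith [show K.tm x ≤ a + d' from m]⟩
  · exact (closure_lt_subset_le continuous_const K.cont).trans fun x m =>
      sd_t.2 ⟨a, j, by linarith [show a - d' ≤ K.tm x from m]⟩

theorem con_sd {U : Set X.M} (hU : IsOpen U) (hc : IsPreconnected U) (h : K.ψ.target ⊆ U)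
    (hd : d ∈ Ioc (0 : ℝ) 1) : IsPreconnected (U ∩ sd K s d) := by
  rcases sd_cases K s d with ⟨k, -⟩ | ⟨a, rfl, j, k⟩ | ⟨a, rfl, j, k⟩ <;> rw [k]
  · simpa using isPreconnected_empty
  · exact (con K hU hc h ⟨fun r m => by cases j.symm.trans m; linarith [hd.1],
      fun r m => by linarith [K.len a j r m, hd.2]⟩).1
  · exact (con K hU hc h ⟨fun r m => by linarith [K.len r m a j, hd.2],
      fun r m => by cases j.symm.trans m; linarith [hd.1]⟩).2

end nk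

section pz
variable {N : Type} [Fintype N] {e : N → En3 κ lam ν} {P : Pz X nc e} (σ : N → Bool) {r : ℝ}

variable (P r) in
/-- the conditions of the necks in `s` -/
def Vs (s : Finset N) : Set X.M := {x | ∀ i ∈ s, ¬P.Off i → ∀ K ∈ P.nk i, x ∈ sd K (σ i) r}

theorem vs_con (hP : P.OK) (hr : r ∈ Ioc (0 : ℝ) 1) (s : Finset N) :
    IsOpen (Vs P σ r s) ∧ IsPreconnected (Vs P σ r s) := by
  classical
  have := hP.con
  induction s using Finset.induction_on with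
  | empty => simpa [Vs] using isPreconnected_univ
  | insert i s hi ih =>
    by_cases o : P.Off i
    · convert ih using 2 <;> simp [Vs, o]
    obtain ⟨K, hK⟩ := nk_of_act o
    rw [show Vs P σ r (insert i s) = Vs P σ r s ∩ sd K (σ i) r by
      ext; simp [Vs, o, hK, and_comm]]
    refine ⟨ih.1.inter (open_sd K), ?_⟩
    by_cases k : K.ψ.target ⊆ Vs P σ r s
    · exact con_sd K ih.1 ih.2 k hr
    have : Disjoint K.ψ.target (Vs P σ r s) := disjoint_left.2 fun x m m' => k fun y p j hj o' K' hK' => by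
      have q := on_spec hP (ne_of_mem_of_not_mem hj hi) hK' hK
      rw [sd_eq (by linarith [hr.2]) (m' j hj o' K' hK') (hf_sd one_pos (q m))]
      exact hf_sd hr.1 (q p)
    obtain ⟨s', q⟩ := side_of ih.2 this
    by_cases j : s' = σ i
    · rw [inter_eq_left.2 fun x m => hf_sd hr.1 (j ▸ q m)]
      exact ih.2
    · rw [eq_empty_of_forall_notMem fun x (m : x ∈ Vs P σ r s ∩ sd K (σ i) r) =>
        j (sd_eq (by linarith [hr.2]) (hf_sd one_pos (q m.1)) m.2)]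
      exact isPreconnected_empty

theorem vx (hP : P.OK) (hr : r ∈ Ioc (0 : ℝ) 1) : IsOpen (Vx P σ r) ∧ IsPreconnected (Vx P σ r) ∧
    IsCompact (closure (Vx P σ r)) ∧ ∀ r' < r, closure (Vx P σ r') ⊆ Vx P σ r := by
  have h := vs_con σ hP hr Finset.univ
  rw [show Vs P σ r Finset.univ = Vx P σ r by simp [Vs, Vx]] at h
  refine ⟨h.1, h.2, ?_, fun r' k x m i o K hK =>
    cl_sd K k (closure_mono (fun y (p : y ∈ Vx P σ r') => p i o K hK) m)⟩
  obtain ⟨T, hT⟩ := (finite_range fun i => (P.nk i).elim 0 fun K =>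
    |K.p.getD 0| + |K.q.getD 0|).bddAbove
  refine (hP.cpt (T + 1)).closure_of_subset fun x m i s K hK k j => ?_
  have h1 : |K.p.getD 0| + |K.q.getD 0| ≤ T := by simpa [Option.mem_def.1 hK] using hT ⟨i, rfl⟩
  have h2 := m i (fun o => by
    obtain ⟨a, o1, o2⟩ := o K hK
    cases s <;> simp [Nk.Inf, o1, o2] at k) K hK
  have h3 : T + 1 < pm s * K.tm x := ((mem_img K inter_subset_left).1 j).2
  have h4 := sd_fin h2
  rcases sd_cases K (σ i) r with ⟨-, q⟩ | ⟨a, q, p, q'⟩ | ⟨a, q, p, q'⟩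
  · exact h4 q
  all_goals
    rw [q', mem_ofPred_eq] at h2
    rw [p, Option.getD_some] at h1
    cases s <;> simp only [q, pm, if_true, Bool.false_eq_true, if_false] at h3 h4
  · exact h4 k
  · linarith [le_abs_self a, abs_nonneg (K.q.getD 0), hr.2]
  · linarith [neg_abs_le a, abs_nonneg (K.p.getD 0), hr.2]
  · exact h4 k

end pz

variable {N N₁ : Type} [Fintype N] [Fintype N₁] {ty : N → Flo2.Ty κ lam ν}
  {ty₁ : N₁ → Flo2.Ty κ lam ν} {P : Pz X nc fun i => (ty i).en} {P₁ : Pz X₁ nc₁ fun i => (ty₁ i).en}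
  {i : N} {j : N₁} {s : Bool} {l : OpenPartialHomeomorph X₁.M X.M} {δ : ℝ} {r : N₁ → N → Prop}
  {c : Fin nc₁ → Fin nc}

/-- one side of a cut in oriented coordinates -/
theorem hlf_sd (h₁ : P₁.OK) (h : Hlf (en := Flo2.Ty.en) P i P₁ j s l δ r c) {K} (hK : K ∈ P.nk i) :
    ∃ K₁ ∈ P₁.nk j, K₁.Inf s ∧ op K s = (op K₁ s).map (· + pm s * δ) ∧
      Sd l (fun x => pm s * K₁.tm x) (fun x => pm s * K.tm x) (op K₁ s) (oq K s) (pm s * δ) := by
  obtain ⟨e, K', hK', K₁, hK₁, k⟩ := h.nk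
  cases hK.symm.trans hK'
  refine ⟨K₁, hK₁, k.1, ?_⟩
  have : ∀ {A B : Flo2.Ty κ lam ν} (e : A = B) (K : Nk A.en P.bg) (K₁ : Nk B.en P₁.bg), K₁.Inf s →
      (if s then K.p = K₁.p.map (· + δ) else K.q = K₁.q.map (· + δ)) →
      l.source = {x | x ∉ K₁.ψ '' (univ ×ˢ {t ∈ K₁.J | t + δ ∉ K.J})} →
      (∀ y t, t ∈ K₁.J → t + δ ∈ K.J → l (K₁.ψ (y, t)) = (e ▸ K : Nk B.en P.bg).ψ (y, t + δ)) →
      op K s = (op K₁ s).map (· + pm s * δ) ∧ Sd l (fun x => pm s * K₁.tm x)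
        (fun x => pm s * K.tm x) (op K₁ s) (oq K s) (pm s * δ) := by
    rintro A _ rfl K K₁
    exact Fht9.sd K s K₁ h₁.con
  exact this e K K₁ k.1 k.2.1 k.2.2.1 k.2.2.2

theorem hlf_tgt (h₁ : P₁.OK) (h : Hlf (en := Flo2.Ty.en) P i P₁ j s l δ r c) {K} (hK : K ∈ P.nk i) :
    K.ψ.target ⊆ l.target ∧ l.target ⊆ K.ψ.target ∪ hf K (!s) := by
  obtain ⟨K₁, -, -, e, k⟩ := hlf_sd h₁ h hK
  refine ⟨fun z m => ?_, fun z m => or_iff_not_imp_left.2 fun n => ?_⟩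
  · obtain ⟨x, k1, -, rfl⟩ := k.sur z (e ▸ (Fht9.mem_J K s).1 ((tm_tgt K).1 m))
    exact l.map_source k1
  · obtain ⟨a, k1, k2⟩ := k.tgt m fun q => n ((tm_tgt K).2 ((Fht9.mem_J K s).2 (e ▸ q)))
    have k3 : a + pm s * δ ∈ op K s := e ▸ Option.mem_map.2 ⟨a, k1, rfl⟩
    cases s
    · obtain ⟨b, k4, k5⟩ := Option.mem_map.1 k3
      exact hf_t.2 ⟨b, k4, by simp only [pm] at k2 k5; norm_num at k2 k5; linarith⟩
    · exact hf_f.2 ⟨_, k3, by simpa [pm] using k2⟩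

/-- **EC-TOP** -/
theorem top : TopStmt κ lam ν := by
  refine ⟨fun X nc e b K U h1 h2 h3 a => con K h1 h2 h3, fun X nc N _ e P h σ r => vx σ h, ?_⟩
  intro X X₁ X₂ nc nc₁ nc₂ N N₁ N₂ _ _ _ ty ty₁ ty₂ P i P₁ j₁ P₂ j₂ l r δ r₁ r₂ c _ h₁ h₂ h K hK
    a ha b hb
  obtain ⟨l1, l2⟩ := hlf_tgt h₁ h.l' hK
  obtain ⟨r1, r2⟩ := hlf_tgt h₂ h.r' hK
  have n := K.len a ha b hb
  have k1 : ∀ z ∈ l.target, K.tm z < b ∧ (z ∈ K.ψ.target ∨ K.tm z ≤ a) := fun z m =>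
    (l2 m).elim (fun k => ⟨((tm_tgt K).1 k).2 b hb, .inl k⟩) fun k => by
      obtain ⟨_, k1, k2⟩ := hf_f.1 k
      cases ha.symm.trans k1
      exact ⟨by linarith, .inr k2⟩
  have k2 : ∀ z ∈ r.target, a < K.tm z ∧ (z ∈ K.ψ.target ∨ b ≤ K.tm z) := fun z m =>
    (r2 m).elim (fun k => ⟨((tm_tgt K).1 k).1 a ha, .inl k⟩) fun k => by
      obtain ⟨_, k1, k2⟩ := hf_t.1 k
      cases hb.symm.trans k1
      exact ⟨by linarith, .inr k2⟩
  exact ⟨Set.ext fun z => ⟨fun m => (k1 z m).1, fun m => (h.cov.ge (mem_univ z)).elim id fun k =>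
    (k2 z k).2.elim (l1 ·) fun q => (q.not_gt m).elim⟩, Set.ext fun z => ⟨fun m => (k2 z m).1,
      fun m => (h.cov.ge (mem_univ z)).elim (fun k => (k1 z k).2.elim (r1 ·) fun q =>
        (q.not_gt m).elim) id⟩⟩

end Crest.Agent.X212.Ect9
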