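import Crest.Agent.X212.Ect9.Top
import Crest.Agent.X212.Lwl9.Main

/-!
# Row 212, EC-TRF (helper9): unique continuation passes from the parts to the whole
-/

set_option autoImplicit false
set_option linter.unusedSectionVars false
noncomputable section
open scoped Manifold ContDiff Topology InnerProductSpace
open MeasureTheory Set Function Filter

namespace Crest.Agent.X212.Ect9
open An Cyf70 Sw End23 Sw.En3
open Nd18 (Jv)
open M (Mf pm)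
open Cut71 (mem_img tm_tgt At)
open Fht9 (Sd op oq)
open Pb50 (LA admOn_of)

variable {κ lam ν : Type} [Fintype κ] [Fintype lam] [Fintype ν] [DecidableEq ν]
  {X X₁ : Mf 4} {nc nc₁ : ℕ} {b : Bg X.I X.M κ lam ν nc} {b₁ : Bg X₁.I X₁.M κ lam ν nc₁}
  {l : OpenPartialHomeomorph X₁.M X.M} {V : Set X.M} {V₁ : Set X₁.M}

/-- `V₁` is the part over `V` -/
abbrev Ov (l : OpenPartialHomeomorph X₁.M X.M) (V₁ : Set X₁.M) (V : Set X.M) : Prop :=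
  ∀ x, x ∈ V₁ ↔ x ∈ l.source ∧ l x ∈ V

theorem lc_pb (h : b₁.Lit b l) (hV : IsOpen V) (hV₁ : IsOpen V₁) (k : Ov l V₁ V) {C c φ}
    (H : Lc b V C c φ) : Lc b₁ V₁ C (c.pb l) fun x => φ (l x) := by
  have a : ∀ (c : Cfg X.M κ ν) x, ∀ᶠ y in 𝓝 x, At l (c.pb l) c y := fun c x =>
    .of_forall (At.pb _ c)
  have s := fun x m => ((k x).1 m).1
  have t := fun x m => ((k x).1 m).2
  have ad : ∀ {c}, b.AdmOn c V → b₁.AdmOn (c.pb l) V₁ := fun j => admOn_of fun x m =>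
    Cut71.la_φ h (s x m) (a _ x) (.of_on j hV (t x m))
  refine ⟨ad H.adm, ad H.adm', fun x m => ⟨(Cut71.eD_φ h (s x m) (a c x)).trans (H.eD _ (t x m)).1,
    (Cut71.eD_φ h (s x m) (a ⟨c.a, φ⟩ x)).trans (H.eD _ (t x m)).2⟩, fun w j x m => ?_,
    fun x m => H.sup _ (t x m), le_trans (le_of_eq_of_le ?_ (Cut71.lint_iso h.iso hV₁.measurableSet
      hV.measurableSet s t _)) H.fc⟩
  · rw [(Cut71.rel h).Dw (s x m) w (u' := b.eC c) ((l.open_source.eventually_mem (s x m)).mono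
      fun y p => Cut71.eC_φ h p (a c y))]
    exact H.eC w j _ (t x m)
  · exact setLIntegral_congr_fun hV₁.measurableSet fun x m => by
      simp only [Cut71.fc_φ h (s x m) (a c x)]

theorem int_pb (h : b₁.Lit b l) (hV : IsOpen V) (hV₁ : IsOpen V₁) (k : Ov l V₁ V)
    (sub : V ⊆ l.target) (g : X.M → ℝ) : ∫ x in V₁, g (l x) ∂b₁.F.μ = ∫ x in V, g x ∂b.F.μ := by
  have := Nka63.setIntegral_comp h.iso (V.indicator g)
  rw [setIntegral_indicator hV.measurableSet, inter_eq_right.2 sub] at this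
  rw [← this, ← inter_eq_right.2 fun x m => ((k x).1 m).1, ← setIntegral_indicator hV₁.measurableSet]
  refine setIntegral_congr_fun l.open_source.measurableSet fun x m => ?_
  by_cases j : l x ∈ V
  · simp only [indicator_of_mem j, indicator_of_mem ((k x).2 ⟨m, j⟩)]
  · simp only [indicator_of_notMem j, indicator_of_notMem fun i => j ((k x).1 i).2]

section nk
variable {e e₁ : En3 κ lam ν} {s : Bool}

/-- the sides `s` of two necks correspond -/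
structure Mc (K : Nk e b) (K₁ : Nk e₁ b₁) (s : Bool) (l : OpenPartialHomeomorph X₁.M X.M) :
    Prop where
  cl : ∀ {V V₁}, Ov l V₁ V →
    (K₁.ψ '' (univ ×ˢ col K₁ s 0 1) ⊆ V₁ ↔ K.ψ '' (univ ×ˢ col K s 0 1) ⊆ V)
  gw : ∀ (M : ℝ) c, (∀ t ∈ col K s (1 / 2) (5 / 8), ∀ t' ∈ col K s (5 / 8) (3 / 4),
    nm (sl (K.pb c) t') ≤ M * nm (sl (K.pb c) t)) → ∀ t ∈ col K₁ s (1 / 2) (5 / 8),
      ∀ t' ∈ col K₁ s (5 / 8) (3 / 4), nm (sl (K₁.pb (c.pb l)) t') ≤ M * nm (sl (K₁.pb (c.pb l)) t)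
  gs : ∀ (Λ m : ℝ) c, (∃ t ∈ col K₁ s (3 / 8) (1 / 2),
    fq 0 (sl (K₁.pb (c.pb l)) t) ≤ Λ * nm (sl (K₁.pb (c.pb l)) t) ∧
      m ≤ Λ * nm (sl (K₁.pb (c.pb l)) t) ∧ nm (sl (K₁.pb (c.pb l)) t) ≤ Λ * m) →
    ∃ t ∈ col K s (3 / 8) (1 / 2), fq 0 (sl (K.pb c) t) ≤ Λ * nm (sl (K.pb c) t) ∧
      m ≤ Λ * nm (sl (K.pb c) t) ∧ nm (sl (K.pb c) t) ≤ Λ * m

variable {K : Nk e b} {K₁ : Nk e b₁} {δ : ℝ}

theorem col_sub {u v : ℝ} (hu : 0 ≤ u) (hv : v ≤ 1) : col K s u v ⊆ col K s 0 1 := by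
  cases s <;> simp only [col, if_true, Bool.false_eq_true, if_false] <;>
    exact Ioo_subset_Ioo (by linarith) (by linarith)

theorem mc_of (h1 : ∀ u v t, t ∈ col K₁ s u v ↔ t + δ ∈ col K s u v) (h2 : ∀ y, ∀ t ∈ col K₁ s 0 1,
    K₁.ψ (y, t) ∈ l.source ∧ l (K₁.ψ (y, t)) = K.ψ (y, t + δ)) : Mc K K₁ s l := by
  have k : ∀ c u v, 0 ≤ u → v ≤ 1 → ∀ t ∈ col K₁ s u v,
      sl (K₁.pb (Cfg.pb l c)) t = sl (K.pb c) (t + δ) := fun c u v hu hv t m => by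
    simp only [sl, Cfg.pb, fun y => (h2 y t (col_sub hu hv m)).2]
  refine ⟨fun o => ⟨fun j _ ⟨⟨y, t⟩, m, p⟩ => ?_, fun j _ ⟨⟨y, t⟩, m, p⟩ => p ▸ (o _).2
    ⟨(h2 y t m.2).1, j ⟨(y, t + δ), ⟨trivial, (h1 _ _ _).1 m.2⟩, (h2 y t m.2).2.symm⟩⟩⟩,
    fun M c j t m t' m' => ?_, fun Λ n c ⟨t, m, j⟩ => ⟨t + δ, (h1 _ _ _).1 m, ?_⟩⟩
  · have m' : t - δ ∈ col K₁ s 0 1 := (h1 _ _ _).2 ((sub_add_cancel t δ).symm ▸ m.2)
    have := ((o _).1 (j ⟨(y, t - δ), ⟨trivial, m'⟩, rfl⟩)).2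
    rwa [(h2 y _ m').2, sub_add_cancel, p] at this
  · rw [k c _ _ (by norm_num) (by norm_num) t m, k c _ _ (by norm_num) (by norm_num) t' m']
    exact j _ ((h1 _ _ _).1 m) _ ((h1 _ _ _).1 m')
  · rwa [k c _ _ (by norm_num) (by norm_num) t m] at j

theorem mc_nh (h : Lwl9.NH K K₁ s l δ) (f : ¬K.Inf (!s)) : Mc K K₁ (!s) l := by
  have k : ∀ u v t, t ∈ col K₁ (!s) u v ↔ t + δ ∈ col K (!s) u v := fun u v t => by
    have h2 := h.2.1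
    cases s
    · obtain ⟨a, j⟩ := fin_t f
      obtain ⟨a', j', rfl⟩ := Option.mem_map.1 (h2 ▸ j : a ∈ K₁.q.map (· + δ))
      rw [Bool.not_false, col_t j, col_t j']
      constructor <;> exact fun i => ⟨by linarith [i.1], by linarith [i.2]⟩
    · obtain ⟨a, j⟩ := fin_f f
      obtain ⟨a', j', rfl⟩ := Option.mem_map.1 (h2 ▸ j : a ∈ K₁.p.map (· + δ))
      rw [Bool.not_true, col_f j, col_f j']
      constructor <;> exact fun i => ⟨by linarith [i.1], by linarith [i.2]⟩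
  refine mc_of k fun y t m => ?_
  simpa only [add_sub_cancel_right] using (h.pull y (col_J f ((k _ _ _).1 m))).2

theorem cor_sd (h : K₁.Cor K l 0) : K.p = K₁.p ∧ K.q = K₁.q ∧ (∀ s, ¬K₁.Inf s → Mc K K₁ s l) ∧
    ∀ U, IsOpen U → IsPreconnected U → K₁.ψ.target ⊆ U → U ⊆ l.source → ∀ s, ∀ d ∈ Ioc (0 : ℝ) 1,
      ∀ x ∈ U, x ∈ sd K₁ s d ↔ l x ∈ sd K s d := by
  obtain ⟨h1, h2, h3⟩ := h
  simp only [add_zero, Option.map_id'] at h1 h2 h3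
  have J : K.J = K₁.J := by rw [Nd18.Nk.J, h1, h2]
  refine ⟨h1, h2, fun s f => mc_of (δ := 0) (fun u v t => by simp only [col, h1, h2, add_zero])
    fun y t m => by simpa only [add_zero, eq_comm] using h3 (y, t) (K₁.mem_src.2 (col_J f m)),
    fun U o c s1 s2 s d hd x hx => ?_⟩
  have t1 : ∀ x ∈ K₁.ψ.target, K.tm (l x) = K₁.tm x := fun x m => by
    obtain ⟨z, j, rfl⟩ := K₁.ψ.image_source_eq_target.ge m
    rw [← (h3 z j).2, K.tm_ψ z (K.mem_src.2 (J ▸ K₁.mem_src.1 j)), K₁.tm_ψ z j]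
  have t2 : ∀ x ∈ U, K.tm (l x) ∈ K₁.J → K.tm (l x) = K₁.tm x := fun x m j => by
    obtain ⟨z, i, p⟩ := K.ψ.image_source_eq_target.ge ((tm_tgt K).2 (J ▸ j))
    have i' := K₁.mem_src.2 (J ▸ K.mem_src.1 i)
    exact t1 x (l.injOn (h3 z i').1 (s2 m) ((h3 z i').2.symm.trans p) ▸ K₁.ψ.map_source i')
  have key : ∀ m ∈ K₁.J, (K₁.tm x < m ↔ K.tm (l x) < m) ∧ (m < K₁.tm x ↔ m < K.tm (l x)) := by
    intro m hm
    obtain ⟨c1, c2⟩ := con K₁ o c s1 hm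
    have ct := fun W (j : W ⊆ U) => K.cont.comp_continuousOn (l.continuousOn.mono (j.trans s2))
    obtain ⟨ε, ε0, p⟩ := Metric.isOpen_iff.1 Nd18.isOpen_Jv m hm
    have k1 : K₁.tm x < m → K.tm (l x) < m := fun j => by
      obtain ⟨z, z1, z2⟩ := exists_tm (K := K₁) (p (show m - ε / 2 ∈ _ by
        rw [Metric.mem_ball, Real.dist_eq, abs_lt]; constructor <;> linarith))
      exact (c1.image _ (ct _ inter_subset_left)).gt_of_ne continuousOn_id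
        (fun _ ⟨y, i, q⟩ r => i.2.ne ((t2 y i.1 (by rw [show K.tm (l y) = m from q.trans r]; exact hm)).symm.trans
          (q.trans r))) ⟨_, ⟨z, ⟨s1 z1, show K₁.tm z < m by linarith⟩, rfl⟩,
          show K.tm (l z) < m by linarith [t1 z z1]⟩ ⟨x, ⟨hx, j⟩, rfl⟩
    have k2 : m < K₁.tm x → m < K.tm (l x) := fun j => by
      obtain ⟨z, z1, z2⟩ := exists_tm (K := K₁) (p (show m + ε / 2 ∈ _ by
        rw [Metric.mem_ball, Real.dist_eq, abs_lt]; constructor <;> linarith))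
      exact (c2.image _ (ct _ inter_subset_left)).lt_of_ne continuousOn_id
        (fun _ ⟨y, i, q⟩ r => i.2.ne' ((t2 y i.1 (by rw [show K.tm (l y) = m from q.trans r]; exact hm)).symm.trans
          (q.trans r))) ⟨_, ⟨z, ⟨s1 z1, show m < K₁.tm z by linarith⟩, rfl⟩,
          show m < K.tm (l z) by linarith [t1 z z1]⟩ ⟨x, ⟨hx, j⟩, rfl⟩
    have k3 : K₁.tm x = m → K.tm (l x) = m := fun j => (t1 x ((tm_tgt K₁).2 (j ▸ hm))).trans j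
    rcases lt_trichotomy (K₁.tm x) m with j | j | j
    · exact ⟨iff_of_true j (k1 j), iff_of_false j.not_gt (k1 j).not_gt⟩
    · rw [j, k3 j]; exact ⟨.rfl, .rfl⟩
    · exact ⟨iff_of_false j.not_gt (k2 j).not_gt, iff_of_true j (k2 j)⟩
  cases s
  · rw [sd_f, sd_f, h1]
    exact exists_congr fun a => and_congr_right fun j => (key _ ⟨fun r m => by
      cases j.symm.trans m; linarith [hd.1], fun r m => by linarith [K₁.len a j r m, hd.2]⟩).1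
  · rw [sd_t, sd_t, h2]
    exact exists_congr fun a => and_congr_right fun j => (key _ ⟨fun r m => by
      linarith [K₁.len r m a j, hd.2], fun r m => by cases j.symm.trans m; linarith [hd.1]⟩).2

theorem sd_op {d : ℝ} {x} : x ∈ sd K (!s) d ↔ ∃ a ∈ op K s, pm s * K.tm x < a + d := by
  cases s
  · rw [Bool.not_false, sd_t]
    cases h : K.q <;> simp [op, pm, h]
    constructor <;> intro <;> linarith
  · simp [sd_f, op, pm]

end nk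

variable {N N₁ : Type} [Fintype N] [Fintype N₁] {ty : N → Flo2.Ty κ lam ν}
  {ty₁ : N₁ → Flo2.Ty κ lam ν} {P : Pz X nc fun i => (ty i).en} {P₁ : Pz X₁ nc₁ fun i => (ty₁ i).en}
  {i : N} {j : N₁} {s : Bool} {δ : ℝ} {r : N₁ → N → Prop} {c₀ : Fin nc₁ → Fin nc}

theorem hlf_mc (h₁ : P₁.OK) (h : Hlf (en := Flo2.Ty.en) P i P₁ j s l δ r c₀) {K} (hK : K ∈ P.nk i)
    (f : ∀ s, ¬K.Inf s) : ∃ K₁ ∈ P₁.nk j, K₁.Inf s ∧ Mc K K₁ (!s) l ∧
      ∀ d ∈ Ioc (0 : ℝ) 1, Ov l (sd K₁ (!s) d) (sd K (!s) d) := by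
  obtain ⟨K₁, hK₁, f₁, e, k⟩ := hlf_sd h₁ h hK
  refine ⟨K₁, hK₁, f₁, ?_, fun d hd x => ?_⟩
  · obtain ⟨e, K', hK', K₁', hK₁', k⟩ := h.nk
    cases hK.symm.trans hK'
    cases hK₁.symm.trans hK₁'
    have : ∀ {A B : Flo2.Ty κ lam ν} (e : A = B) (K : Nk A.en P.bg) (K₁ : Nk B.en P₁.bg),
        ¬K.Inf (!s) → (K₁.Inf s ∧ (if s then K.p = K₁.p.map (· + δ) else K.q = K₁.q.map (· + δ)) ∧
        l.source = {x | x ∉ K₁.ψ '' (univ ×ˢ {t ∈ K₁.J | t + δ ∉ K.J})} ∧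
        ∀ y t, t ∈ K₁.J → t + δ ∈ K.J → l (K₁.ψ (y, t)) = (e ▸ K : Nk B.en P.bg).ψ (y, t + δ)) →
        Mc K K₁ (!s) l := by
      rintro A _ rfl K K₁ f k
      exact mc_nh k f
    exact this e K K₁ (f _) k
  rw [sd_op, sd_op, e]
  simp only [Option.mem_map, exists_exists_and_eq_and]
  constructor
  · rintro ⟨a, h1, h2⟩
    have m : x ∈ l.source := k.src' (A := a + 1) (fun q j => by
      linarith [k.len _ (Option.mem_map.2 ⟨a, h1, rfl⟩) q j]) (by linarith [hd.2])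
    refine ⟨m, a, h1, ?_⟩
    by_cases j : pm s * K₁.tm x ∈ Jv (op K₁ s) none
    · linarith [k.tm x m j]
    · obtain ⟨a', j1, -, j2⟩ := k.off j
      cases h1.symm.trans j1
      linarith [hd.1]
  · rintro ⟨m, a, h1, h2⟩
    refine ⟨a, h1, ?_⟩
    by_cases j : pm s * K₁.tm x ∈ Jv (op K₁ s) none
    · linarith [k.tm x m j]
    · obtain ⟨a', j1, j2, -⟩ := k.off j
      cases h1.symm.trans j1
      linarith [hd.1]

theorem nc_mc {i' j'} (h : NC (en := Flo2.Ty.en) P₁ P l j' i' 0) (o : ¬P₁.Off j' ∨ ¬P.Off i') :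
    ¬P₁.Off j' ∧ ¬P.Off i' ∧ ∃ K₁ ∈ P₁.nk j', ∃ K ∈ P.nk i', (∀ s, K.Inf s ↔ K₁.Inf s) ∧
      (∀ s, ¬K₁.Inf s → Mc K K₁ s l) ∧ ∀ U, IsOpen U → IsPreconnected U → K₁.ψ.target ⊆ U →
        U ⊆ l.source → ∀ s, ∀ d ∈ Ioc (0 : ℝ) 1, ∀ x ∈ U, x ∈ sd K₁ s d ↔ l x ∈ sd K s d := by
  obtain ⟨e, K₁, hK₁, K, hK, k⟩ := h.resolve_left fun k => o.elim (· k.1) (· k.2)
  have : ∀ {A B : Flo2.Ty κ lam ν} (e : A = B) (K : Nk A.en P.bg) (K₁ : Nk B.en P₁.bg),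
      K₁.Cor (e ▸ K : Nk B.en P.bg) l 0 → K.p = K₁.p ∧ K.q = K₁.q ∧
      (∀ s, ¬K₁.Inf s → Mc K K₁ s l) ∧ ∀ U, IsOpen U → IsPreconnected U → K₁.ψ.target ⊆ U →
        U ⊆ l.source → ∀ s, ∀ d ∈ Ioc (0 : ℝ) 1, ∀ x ∈ U, x ∈ sd K₁ s d ↔ l x ∈ sd K s d := by
    rintro A _ rfl K K₁
    exact cor_sd
  obtain ⟨h1, h2, h3⟩ := this e K K₁ k
  have : P₁.Off j' ↔ P.Off i' := by
    simp only [Pz.Off, Option.mem_def.1 hK, Option.mem_def.1 hK₁, Option.mem_def, Option.some.injEq,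
      forall_eq', h1, h2]
  exact ⟨by tauto, by tauto, K₁, hK₁, K, hK, fun s => by simp only [Nk.Inf, h1, h2], h3⟩

/-- one side -/
theorem half (hP : P.OK) (h₁ : P₁.OK) (h : Hlf (en := Flo2.Ty.en) P i P₁ j s l δ r c₀)
    (o : ¬P.Off i) {K} (hK : K ∈ P.nk i) (f : ∀ s, ¬K.Inf s) (sub : sd K (!s) 1 ⊆ l.target)
    (oth : ∀ i', i' = i ∨ P.Off i' ∨ (∃ j', r j' i') ∨ ∀ K' ∈ P.nk i', Disjoint K'.ψ.target l.target)
    {C M Λ : ℝ} (hU : Uc P₁ C M Λ) {σ : N → Bool} (hσ : σ i = !s) {c φ}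
    (hL : Lc P.bg (Vx P σ (7 / 8)) C c φ) (hG : ∀ i, Adj P σ i → Gw P M ⟨c.a, φ⟩ i (σ i)) {i₀}
    (hA : Adj P σ i₀) : Gs P Λ (ms P σ φ) ⟨c.a, φ⟩ i₀ (σ i₀) := by
  classical
  obtain ⟨K₁, hK₁, f₁, m₁, o₁⟩ := hlf_mc h₁ h hK f
  have one : (1 : ℝ) ∈ Ioc (0 : ℝ) 1 := ⟨one_pos, le_rfl⟩
  have := hP.con
  have := h₁.con
  have w := univ_inter _ ▸ con_sd K (s := !s) isOpen_univ isPreconnected_univ (subset_univ _) one
  have w₁ := univ_inter _ ▸ con_sd K₁ (s := !s) isOpen_univ isPreconnected_univ (subset_univ _) one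
  have n₁ : ¬P₁.Off j := fun k => by
    obtain ⟨a, k1, k2⟩ := k K₁ hK₁
    cases s <;> simp [Nk.Inf, k1, k2] at f₁
  obtain ⟨σ₁, s1, s2⟩ : ∃ σ₁ : N₁ → Bool, σ₁ j = !s ∧ ∀ j' i', r j' i' → σ₁ j' = σ i' :=
    ⟨fun j' => if k : ∃ i', r j' i' then σ k.choose else !s, dif_neg fun ⟨_, k⟩ => (h.nc _ _ k).1 rfl,
      fun j' i' k => (dif_pos ⟨i', k⟩).trans
        (congrArg σ ((h.inj _ _ _ _ (Exists.choose_spec ⟨i', k⟩) k).1 rfl))⟩
  have vs : ∀ d ≤ 1, Vx P σ d ⊆ sd K (!s) 1 := fun d hd x m => sd_mono hd (hσ ▸ m i o K hK)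
  have ne : ∀ i', Adj P σ i' → ∀ K' ∈ P.nk i', (K'.ψ.target ∩ Vx P σ 1).Nonempty := fun i' a K' k => by
    have q : ¬K'.Inf (σ i') := fun q => a.fin ⟨K', k, q⟩
    obtain ⟨t, ht⟩ := col_ne (K := K') (s := σ i') one_pos
    obtain ⟨x, hx, rfl⟩ := exists_tm (col_J q ht)
    exact ⟨x, hx, a.2 K' k ((mem_img K' (col_J q)).2 ht)⟩
  have rl : ∀ j' i', r j' i' → ¬P₁.Off j' ∨ ¬P.Off i' → ¬P₁.Off j' ∧ ¬P.Off i' ∧
      ∃ K₁', P₁.nk j' = some K₁' ∧ ∃ K', P.nk i' = some K' ∧ (∀ s, K'.Inf s ↔ K₁'.Inf s) ∧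
      (∀ s, ¬K₁'.Inf s → Mc K' K₁' s l) ∧ ∀ s', ∀ d ∈ Ioc (0 : ℝ) 1, ∀ x ∈ sd K₁ (!s) 1,
        x ∈ sd K₁' s' d ↔ l x ∈ sd K' s' d := fun j' i' k q => by
    obtain ⟨q1, q2, K₁', k1, K', k2, k3, k4, k5⟩ := nc_mc (h.nc _ _ k).2.2 q
    refine ⟨q1, q2, K₁', k1, K', k2, k3, k4, k5 _ (open_sd K₁) w₁ (fun x m => ?_)
      fun x m => ((o₁ 1 one x).1 m).1⟩
    have p := hf_sd one_pos (on_spec h₁ (h.nc _ _ k).1.symm hK₁ k1 m)
    rwa [Bool.eq_not_iff.2 fun q : os P₁ j j' = s => sd_fin p (q ▸ f₁)] at p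
  have ov : ∀ d ∈ Ioc (0 : ℝ) 1, Ov l (Vx P₁ σ₁ d) (Vx P σ d) := fun d hd x => by
    refine ⟨fun m => ?_, fun ⟨m, m'⟩ j' q K' k => ?_⟩
    · have p := s1 ▸ m j n₁ K₁ hK₁
      obtain ⟨p1, p2⟩ := (o₁ d hd x).1 p
      refine ⟨p1, fun i' q K' k => ?_⟩
      rcases oth i' with rfl | u | ⟨j', u⟩ | u
      · cases hK.symm.trans k
        exact hσ ▸ p2
      · exact (q u).elim
      · obtain ⟨q1, -, K₁', k1, K'', k2, -, -, k3⟩ := rl j' i' u (.inr q)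
        cases k2.symm.trans k
        exact (k3 _ d hd x (sd_mono hd.2 p)).1 (s2 _ _ u ▸ m j' q1 K₁' k1)
      · obtain ⟨s', u'⟩ := side_of w ((u K' k).mono_right sub)
        obtain ⟨K₀, k₀⟩ := nk_of_act hA.1
        obtain ⟨z, -, z1⟩ := ne i₀ hA K₀ k₀
        rw [sd_eq (by norm_num) (z1 i' q K' k) (hf_sd one_pos (u' (vs 1 le_rfl z1)))]
        exact hf_sd hd.1 (u' (sd_mono hd.2 p2))
    · have p := (o₁ d hd x).2 ⟨m, hσ ▸ m' i o K hK⟩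
      rcases h.all j' with rfl | u | ⟨i', u⟩
      · cases hK₁.symm.trans k
        exact s1 ▸ p
      · exact (q u).elim
      · obtain ⟨-, q1, K₁', k1, K'', k2, -, -, k3⟩ := rl j' i' u (.inl q)
        cases k1.symm.trans k
        exact (k3 _ d hd x (sd_mono hd.2 p)).2 (s2 _ _ u ▸ m' i' q1 K'' k2)
  have op := fun d hd => (vx σ hP (r := d) hd).1
  have op₁ := fun d hd => (vx σ₁ h₁ (r := d) hd).1
  have e : ms P₁ σ₁ (fun x => φ (l x)) = ms P σ φ := int_pb h.lit (op _ (by norm_num))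
    (op₁ _ (by norm_num)) (ov _ (by norm_num)) ((vs _ (by norm_num)).trans sub) fun x => ‖φ x‖ ^ 2
  have key := hU σ₁ _ _ (lc_pb h.lit (op _ (by norm_num)) (op₁ _ (by norm_num)) (ov _ (by norm_num)) hL)
    fun j' a K' k => by
      rcases h.all j' with rfl | u | ⟨i', u⟩
      · cases hK₁.symm.trans k
        have := a.2 _ k
        rw [s1] at this ⊢
        exact m₁.gw M ⟨c.a, φ⟩ (hσ ▸ hG i ⟨o, fun K' k' => by
          cases hK.symm.trans k'; exact hσ ▸ (m₁.cl (ov 1 one)).1 this⟩ K hK)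
      · exact (a.1 u).elim
      · obtain ⟨-, q1, K₁', k1, K'', k2, -, k3, -⟩ := rl j' i' u (.inl a.1)
        cases k1.symm.trans k
        have m := k3 _ fun q => a.fin ⟨K', k, q⟩
        have := a.2 K' k
        rw [s2 _ _ u] at this m ⊢
        exact m.gw M ⟨c.a, φ⟩ (hG i' ⟨q1, fun K' k' => by
          cases k2.symm.trans k'; exact (m.cl (ov 1 one)).1 this⟩ K'' k2)
  rw [e] at key
  intro K' k
  rcases oth i₀ with rfl | u | ⟨j', u⟩ | u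
  · cases hK.symm.trans k
    have := hA.2 _ k
    rw [hσ] at this ⊢
    exact m₁.gs _ _ ⟨c.a, φ⟩ (s1 ▸ key j ⟨n₁, fun K' k' => by
      cases hK₁.symm.trans k'; exact s1 ▸ (m₁.cl (ov 1 one)).2 this⟩ K₁ hK₁)
  · exact (hA.1 u).elim
  · obtain ⟨q1, -, K₁', k1, K'', k2, k3, k4, -⟩ := rl j' i₀ u (.inr hA.1)
    cases k2.symm.trans k
    have m := k4 _ fun q => hA.fin ⟨K', k, (k3 _).2 q⟩
    exact m.gs _ _ ⟨c.a, φ⟩ (s2 _ _ u ▸ key j' ⟨q1, fun K' k' => by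
      cases k1.symm.trans k'; exact s2 _ _ u ▸ (m.cl (ov 1 one)).2 (hA.2 _ k)⟩ K₁' k1)
  · obtain ⟨z, z1, z2⟩ := ne i₀ hA K' k
    exact (disjoint_left.1 (u K' k) z1 (sub (vs 1 le_rfl z2))).elim

theorem nc_tgt {i' j'} (h : NC (en := Flo2.Ty.en) P₁ P l j' i' 0) (o : ¬P.Off i') {K}
    (hK : K ∈ P.nk i') : K.ψ.target ⊆ l.target := by
  obtain ⟨e, K₁, -, K', hK', k⟩ := h.resolve_left fun k => o k.2
  cases hK.symm.trans hK'
  have : ∀ {A B : Flo2.Ty κ lam ν} (e : A = B) (K : Nk A.en P.bg) (K₁ : Nk B.en P₁.bg),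
      K₁.Cor (e ▸ K : Nk B.en P.bg) l 0 → K.ψ.target ⊆ l.target := by
    rintro A _ rfl K K₁ ⟨h1, h2, h3⟩ x m
    simp only [add_zero, Option.map_id'] at h1 h2 h3
    obtain ⟨z, j, rfl⟩ := K.ψ.image_source_eq_target.ge m
    have j' : z ∈ K₁.ψ.source := by rwa [K₁.src, ← h1, ← h2, ← K.src]
    exact (h3 z j').2 ▸ l.map_source (h3 z j').1
  exact this e K K₁ k

/-- **EC-TRF** -/
theorem trf : TrfStmt κ lam ν := by
  intro X X₁ X₂ nc nc₁ nc₂ N N₁ N₂ _ _ _ ty ty₁ ty₂ P i P₁ j₁ P₂ j₂ l r δ r₁ r₂ c hP h₁ h₂ o f h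
    C M Λ u₁ u₂ σ c φ hL hG i₀ hA
  obtain ⟨K, hK⟩ := nk_of_act o
  have f' : ∀ s, ¬K.Inf s := fun s => by
    cases s
    exacts [(f K hK).1, (f K hK).2]
  obtain ⟨l1, l2⟩ := hlf_tgt h₁ h.l' hK
  obtain ⟨r1, r2⟩ := hlf_tgt h₂ h.r' hK
  have cap := h.cap K hK
  cases hσ : σ i
  · refine half hP h₁ h.l' o hK f' (fun z m => (h.cov.ge (mem_univ z)).elim id fun k =>
      (r2 k).elim (l1 ·) fun q => ?_) (fun i' => ?_) u₁ hσ hL hG hA
    · cases sd_eq (by norm_num) m (hf_sd one_pos q)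
    · by_cases q : P.Off i'
      · exact .inr (.inl q)
      exact (h.all i').imp_right fun k => k.imp_right fun k => k.imp_right fun ⟨j, k⟩ K' k' =>
        disjoint_left.2 fun z a b => disjoint_left.1 (hP.dj (h.r'.nc _ _ k).2.1 K' k' K hK) a
          (cap.le ⟨b, nc_tgt (h.r'.nc _ _ k).2.2 q k' a⟩)
  · refine half hP h₂ h.r' o hK f' (fun z m => (h.cov.ge (mem_univ z)).elim (fun k =>
      (l2 k).elim (r1 ·) fun q => ?_) id) (fun i' => ?_) u₂ hσ hL hG hA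
    · cases sd_eq (by norm_num) m (hf_sd one_pos q)
    · by_cases q : P.Off i'
      · exact .inr (.inl q)
      exact (h.all i').imp_right fun k => k.imp_right fun k => k.symm.imp_right fun ⟨j, k⟩ K' k' =>
        disjoint_left.2 fun z a b => disjoint_left.1 (hP.dj (h.l'.nc _ _ k).2.1 K' k' K hK) a
          (cap.le ⟨nc_tgt (h.l'.nc _ _ k).2.2 q k' a, b⟩)

end Crest.Agent.X212.Ect9
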